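import Vale.Agent.P088.R2.H31.DM.Top
import Vale.Agent.P088I65.Defs
import Mathlib.Geometry.Manifold.PartitionOfUnity

/-! P088: extension and restriction of boundary data; the conclusion in intrinsic form. -/

open Bundle Manifold MeasureTheory Set Filter Topology
open scoped ContDiff Matrix

noncomputable section

set_option linter.unusedSectionVars false

namespace Vale.Agent.P088I9

open Vale.Agent.P088

universe u

variable {n N : ℕ} [NeZero n] {M : Type u} [TopologicalSpace M]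
  [ChartedSpace (EuclideanHalfSpace n) M] [IsManifold (𝓡∂ n) ∞ M]

/-- The hyperplane `y_0 = 0`. -/
abbrev W (n : ℕ) [NeZero n] : Submodule ℝ (EuclideanSpace ℝ (Fin n)) :=
  (ℝ ∙ EuclideanSpace.single (0 : Fin n) (1 : ℝ))ᗮ

theorem mem_W {y : EuclideanSpace ℝ (Fin n)} : y ∈ W n ↔ y 0 = 0 := by
  rw [Submodule.mem_orthogonal_singleton_iff_inner_right, EuclideanSpace.inner_single_left]
  simp

theorem proj_W {y : EuclideanSpace ℝ (Fin n)} (hy : y 0 = 0) :
    ((W n).orthogonalProjectionOnto y : EuclideanSpace ℝ (Fin n)) = y :=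
  congrArg Subtype.val
    (Submodule.orthogonalProjectionOnto_mem_subspace_eq_self (K := W n) ⟨y, mem_W.2 hy⟩)

theorem res {Γ : Set M} {F : M → P088I65.Fib N} (hF : P088I65.Smooth n F)
    (hs : closure {x ∈ (𝓡∂ n).boundary M | F x ≠ 0} ⊆ Γ) : P088I65.Data n Γ F := by
  refine ⟨fun p => ?_, hs⟩
  have h1 : ContMDiffOn 𝓘(ℝ, EuclideanSpace ℝ (Fin n)) 𝓘(ℝ, P088I65.Fib N) ∞
      (F ∘ (extChartAt (𝓡∂ n) p).symm) (extChartAt (𝓡∂ n) p).target :=
    ContMDiff.comp_contMDiffOn hF (contMDiffOn_extChartAt_symm p)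
  exact (contMDiffOn_iff_contDiffOn.1 h1).comp (W n).subtypeL.contDiff.contDiffOn fun z hz => hz

theorem ext [T2Space M] [CompactSpace M] {Γ : Set M} {f : M → P088I65.Fib N}
    (hf : P088I65.Data n Γ f) :
    ∃ F : M → P088I65.Fib N, P088I65.Smooth n F ∧ ∀ x ∈ (𝓡∂ n).boundary M, F x = f x := by
  have hc : ∀ x : M, Convex ℝ {a : P088I65.Fib N | x ∈ (𝓡∂ n).boundary M → a = f x} := by
    intro x a ha b hb s t _ _ hst hx
    rw [ha hx, hb hx, ← add_smul, hst, one_smul]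
  obtain ⟨F, hF⟩ := exists_contMDiffMap_forall_mem_convex_of_local (n := ⊤) (𝓡∂ n) hc
    (fun p => by
    by_cases hp : p ∈ (𝓡∂ n).boundary M
    · set c := extChartAt (𝓡∂ n) p with hcdef
      set pr := (W n).orthogonalProjectionOnto with hpr
      have hp0 : c p 0 = 0 := (EYM.cLoc_bd p p (mem_extChartAt_source p)).1 hp
      have hcont : ContinuousAt (fun y => ((pr (c y) : W n) : EuclideanSpace ℝ (Fin n))) p :=
        (continuous_subtype_val.comp pr.continuous).continuousAt.comp (continuousAt_extChartAt p)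
      have hten : Tendsto (fun y => ((pr (c y) : W n) : EuclideanSpace ℝ (Fin n))) (𝓝 p)
          (𝓝[range (𝓡∂ n)] (c p)) := by
        refine tendsto_nhdsWithin_iff.2 ⟨?_, Eventually.of_forall fun y => ?_⟩
        · have := hcont.tendsto
          rwa [show ((pr (c p) : W n) : EuclideanSpace ℝ (Fin n)) = c p from proj_W hp0] at this
        · rw [range_modelWithCornersEuclideanHalfSpace]
          exact (mem_W.1 (pr (c y)).2).ge
      refine ⟨c.source ∩ {y | ((pr (c y) : W n) : EuclideanSpace ℝ (Fin n)) ∈ c.target},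
        inter_mem (extChartAt_source_mem_nhds p) (hten (extChartAt_target_mem_nhdsWithin p)),
        fun y => f (c.symm (pr (c y) : W n)), ?_, fun y hy hb => ?_⟩
      · have h1 : ContMDiffOn (𝓡∂ n) 𝓘(ℝ, EuclideanSpace ℝ (Fin n)) ∞ c c.source := by
          rw [hcdef, extChartAt_source]
          exact contMDiffOn_extChartAt
        have h2 : ContMDiffOn (𝓡∂ n) 𝓘(ℝ, W n) ∞ (fun y => pr (c y)) c.source :=
          pr.contDiff.contMDiff.comp_contMDiffOn h1
        exact (contMDiffOn_iff_contDiffOn.2 (hf.1 p)).comp (h2.mono inter_subset_left)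
          fun y hy => hy.2
      · have h0 : c y 0 = 0 := (EYM.cLoc_bd p y hy.1).1 hb
        show f (c.symm (pr (c y) : W n)) = f y
        rw [show ((pr (c y) : W n) : EuclideanSpace ℝ (Fin n)) = c y from proj_W h0,
          c.left_inv hy.1]
    · exact ⟨((𝓡∂ n).boundary M)ᶜ,
        ((𝓡∂ n).isClosed_boundary (n := ∞) (by simp)).isOpen_compl.mem_nhds hp,
        fun _ => 0, contMDiffOn_const, fun y hy hb => absurd hb hy⟩)
  exact ⟨F, F.contMDiff, hF⟩

theorem sum_es (v : EuclideanSpace ℝ (Fin n)) : v = ∑ j, v j • es n j := by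
  ext k
  simp [es, Finset.sum_apply, Pi.single_apply]

theorem smMap {Φ : M → M} (h : B.SmMap (B.at_ n M) Φ) : ContMDiff (𝓡∂ n) (𝓡∂ n) ∞ Φ := by
  rw [contMDiff_iff_target]
  refine ⟨h.1, fun p => ?_⟩
  rw [extChartAt_source]
  have h1 : ∀ i, ContMDiffOn (𝓡∂ n) 𝓘(ℝ, EuclideanSpace ℝ (Fin n)) ∞
      (fun x => (extChartAt (𝓡∂ n) p (Φ x)) i • es n i)
      (Φ ⁻¹' (chartAt (EuclideanHalfSpace n) p).source) := fun i => by
    have h2 : ContMDiffOn (𝓡∂ n) 𝓘(ℝ, ℂ) ∞ (fun x => ((extChartAt (𝓡∂ n) p (Φ x) i : ℝ) : ℂ))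
      (Φ ⁻¹' (chartAt (EuclideanHalfSpace n) p).source) := h.2 p i
    have h3 := (Complex.reCLM.smulRight (es n i)).contDiff.contMDiff.comp_contMDiffOn (n := ∞) h2
    refine h3.congr fun x _ => ?_
    simp
  refine (contMDiffOn_finsetSum fun i (_ : i ∈ Finset.univ) => h1 i).congr fun x _ => ?_
  exact sum_es _

theorem rel_D {Φ : M → M} {x : M} (hΦ : MDifferentiableAt (𝓡∂ n) (𝓡∂ n) Φ x)
    (v : EuclideanSpace ℝ (Fin n)) (i : Fin n) :
    S.brRel_D Φ x v i = ∑ j, S.jacOf n Φ x i j * v j := by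
  conv_lhs => rw [sum_es v]
  rw [map_sum]
  simp only [map_smul, S.brRel_jac hΦ]
  simp [Finset.sum_apply, mul_comm]

theorem rel_met {Φ : M → M} {x : M} (hΦ : MDifferentiableAt (𝓡∂ n) (𝓡∂ n) Φ x)
    (G : Matrix (Fin n) (Fin n) ℝ) (v w : EuclideanSpace ℝ (Fin n)) :
    S.bil ((S.jacOf n Φ x)ᵀ * G * S.jacOf n Φ x) v w =
      S.bil G (S.brRel_D Φ x v) (S.brRel_D Φ x w) := by
  have h : ∀ (A : Matrix (Fin n) (Fin n) ℝ) (a b : EuclideanSpace ℝ (Fin n)),
      S.bil A a b = a.ofLp ⬝ᵥ (A *ᵥ b.ofLp) := fun A a b => by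
    rw [S.bil_apply]
    simp only [dotProduct, Matrix.mulVec, Finset.mul_sum]
    exact Finset.sum_congr rfl fun i _ => Finset.sum_congr rfl fun j _ => by ring
  have hD : ∀ a : EuclideanSpace ℝ (Fin n), (S.brRel_D Φ x a).ofLp = S.jacOf n Φ x *ᵥ a.ofLp :=
    fun a => funext fun i => rel_D hΦ a i
  rw [h, h, hD, hD, ← Matrix.mulVec_mulVec, ← Matrix.mulVec_mulVec, Matrix.dotProduct_mulVec,
    Matrix.vecMul_transpose]

theorem rel_con {Φ : M → M} {x : M} (hΦ : MDifferentiableAt (𝓡∂ n) (𝓡∂ n) Φ x)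
    {U : M → Matrix (Fin N) (Fin N) ℂ}
    (hU : ContMDiff (𝓡∂ n) 𝓘(ℝ, EndF N) ∞ fun x => S.toE (U x))
    (a c : Fin n → Matrix (Fin N) (Fin N) ℂ)
    (h : ∀ j, c j = (U x)ᴴ * ((∑ i, S.jacOf n Φ x i j • a i) * U x +
      Matrix.of fun s t => S.pd n (fun z => U z s t) x j))
    (v : EuclideanSpace ℝ (Fin n)) :
    S.formOf c v = ContinuousLinearMap.adjoint (S.toE (U x)) *
      (S.formOf a (S.brRel_D Φ x v) * S.toE (U x)) +
      ContinuousLinearMap.adjoint (S.toE (U x)) * dI (𝓡∂ n) (fun x => S.toE (U x)) x v := by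
  have h1 : ∀ j, S.formOf c (es n j) = ContinuousLinearMap.adjoint (S.toE (U x)) *
      (S.formOf a (S.brRel_D Φ x (es n j)) * S.toE (U x)) +
      ContinuousLinearMap.adjoint (S.toE (U x)) *
        dI (𝓡∂ n) (fun x => S.toE (U x)) x (es n j) := fun j => by
    have h2 : S.formOf c (es n j) = S.toE (c j) := by
      rw [S.formOf_apply, S.toE_rsum]
      congr 1
      simp
    have h3 : S.toE (∑ i, S.jacOf n Φ x i j • a i) = S.formOf a (S.brRel_D Φ x (es n j)) := by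
      rw [S.formOf_apply, S.toE_rsum]
      simp only [S.brRel_jac hΦ]
    have h4 := S.dI_ofE hU x j
    simp only [S.ofE_toE] at h4
    rw [h2, h j, S.toE_mul, S.toE_add, S.toE_mul, S.toE_star, h3, ← h4, S.toE_ofE, mul_add]
  rw [sum_es v]
  simp only [map_sum, map_smul, h1, Finset.mul_sum, Finset.sum_mul, smul_add,
    Finset.sum_add_distrib, mul_smul_comm, smul_mul_assoc]

theorem rel {Γ : Set M} {P Q : B.Pair (B.at_ n M) N} (h : B.Related Γ P Q) :
    GaugeEquivalent Γ (S.gOf (B.conv P)) (S.connOf (B.conv P)) (S.gOf (B.conv Q))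
      (S.connOf (B.conv Q)) := by
  obtain ⟨Φ, Ψ, U, hΦ, hΨ, hinv, hU, hun, hfix, hx⟩ := h
  have hΦ' := smMap hΦ
  have hd : ∀ x, MDifferentiableAt (𝓡∂ n) (𝓡∂ n) Φ x := fun x =>
    hΦ'.mdifferentiableAt (by simp)
  have hU' : ContMDiff (𝓡∂ n) 𝓘(ℝ, EndF N) ∞ fun x => S.toE (U x) :=
    contMDiffOn_univ.1 (S.contMDiffOn_toE fun a b => hU a b)
  refine ⟨⟨⟨Φ, Ψ, fun x => (hinv x).1, fun x => (hinv x).2⟩, hΦ', smMap hΨ⟩,
    fun x => S.toE (U x), ⟨hU', fun x => Unitary.mem_iff.2 ⟨?_, ?_⟩⟩,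
    fun x hx => ⟨(hfix x hx).1, ?_⟩, fun x v w => ?_, fun x v => ?_⟩
  · show ContinuousLinearMap.adjoint (S.toE (U x)) * S.toE (U x) = 1
    rw [← S.toE_star, ← S.toE_mul, hun x, S.toE_one]
  · show S.toE (U x) * ContinuousLinearMap.adjoint (S.toE (U x)) = 1
    rw [← S.toE_star, ← S.toE_mul, mul_eq_one_comm.1 (hun x), S.toE_one]
  · show S.toE (U x) = 1
    rw [(hfix x hx).2, S.toE_one]
  · have h1 := (hx x).1
    rw [B.brSt3_jac] at h1
    show S.bil (Q.g x) v w = S.bil (P.g (Φ x)) (S.brRel_D Φ x v) (S.brRel_D Φ x w)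
    rw [h1]
    exact rel_met (hd x) _ v w
  · have h1 := (hx x).2
    rw [B.brSt3_jac] at h1
    refine rel_con (hd x) hU' (P.A (Φ x)) (Q.A x) (fun j => (h1 j).trans ?_) v
    congr 2
    ext a b
    exact B.dj_old (fun y => U (B.pt (B.at_ n M) x y) a b) (B.at_nonneg x x) j

end Vale.Agent.P088I9
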